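import Vale.Agent.P219.Bridge
import Vale.Agent.P219.Cert
import Vale.Agent.P219.Cert5
import Vale.Agent.P219.Cert.Seven
import Vale.Agent.P219.Cert8
import Vale.Agent.P219.Cert9
import Vale.Agent.P219.Cert10
import Vale.Agent.P219.AFinal

/-!
# P219: the sharp isoperimetric inequality of Cartan-Hadamard manifolds in dimensions five to ten
-/

namespace Vale.Agent.Results.P219.CartanHadamardProfile

open Vale.Agent.P219

theorem result :
    ∀ n : ℕ, n ∈ Finset.Icc 5 10 →
      ∀ G : EuclideanSpace ℝ (Fin n) →
          EuclideanSpace ℝ (Fin n) →L[ℝ] EuclideanSpace ℝ (Fin n) →L[ℝ] ℝ,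
        Statement.IsCartanHadamard G →
          Statement.IsoIneq n (Statement.isoConst n) (Statement.riemVolume G) G := by
  intro n hn G hG
  obtain ⟨h1, h2⟩ := Finset.mem_Icc.1 hn
  have hG' : IsCH G := isCH_of_statement hG
  interval_cases n
  · exact isoIneq_of_profile
      (euclidProfile (by norm_num) exists_calib_five hG')
  · exact isoIneq_of_profile
      (euclidProfile (by norm_num) exists_calib_six hG')
  · exact isoIneq_of_profile
      (euclidProfile (by norm_num) exists_calib_seven hG')
  · exact isoIneq_of_profile
      (euclidProfile_aniso (by norm_num) exists_acalib_eight hG')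
  · exact isoIneq_of_profile
      (euclidProfile_aniso (by norm_num) exists_acalib_nine hG')
  · exact isoIneq_of_profile
      (euclidProfile_aniso (by norm_num) exists_acalib_ten hG')

end Vale.Agent.Results.P219.CartanHadamardProfile
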